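import Mathlib

/-!
# Extended-real-valued plurisubharmonic functions: comparison with `κ log |z - a|`

`IsPSH Ω u` : `u : (Fin d → ℂ) → EReal` is upper semicontinuous on `Ω`, nowhere `⊤` there, and
satisfies the sub-mean value inequality on all closed complex discs of `Ω`, stated with
continuous majorants on the boundary circle.
-/

open Filter Metric Topology Set

namespace Vale.Agent.P301.H474

/-- `u` is plurisubharmonic on `Ω` (the sub-mean property over discs is phrased with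
continuous majorants of `u` on the boundary circle). -/
def IsPSH {d : ℕ} (Ω : Set (Fin d → ℂ)) (u : (Fin d → ℂ) → EReal) : Prop :=
  UpperSemicontinuousOn u Ω ∧ (∀ z ∈ Ω, u z ≠ ⊤) ∧
  ∀ a b : Fin d → ℂ, (∀ ζ : ℂ, ‖ζ‖ ≤ 1 → a + ζ • b ∈ Ω) → ∀ f : ℂ → ℝ, Continuous f →
    (∀ ζ : ℂ, ‖ζ‖ = 1 → u (a + ζ • b) ≤ (f ζ : EReal)) →
    u a ≤ ((Real.circleAverage f 0 1 : ℝ) : EReal)

/-- circle average of `‖z‖²`. -/
lemma circleAverage_norm_sq (c : ℂ) (s : ℝ) :
    Real.circleAverage (fun z : ℂ => ‖z‖ ^ 2) c s = ‖c‖ ^ 2 + s ^ 2 := by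
  rw [Real.circleAverage_def]
  have h1 : ∀ θ : ℝ, ‖circleMap c s θ‖ ^ 2 = (‖c‖ ^ 2 + s ^ 2) +
      (2 * s * c.re * Real.cos θ + 2 * s * c.im * Real.sin θ) := by
    intro θ
    rw [← Complex.normSq_eq_norm_sq, ← Complex.normSq_eq_norm_sq, circleMap]
    have : Complex.exp (θ * Complex.I) = Real.cos θ + Real.sin θ * Complex.I := by
      rw [Complex.exp_mul_I, Complex.ofReal_cos, Complex.ofReal_sin]
    rw [this]
    simp only [Complex.normSq_apply, Complex.add_re, Complex.mul_re, Complex.ofReal_re,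
      Complex.ofReal_im, Complex.add_im, Complex.mul_im, Complex.I_re, Complex.I_im]
    nlinarith [Real.sin_sq_add_cos_sq θ]
  simp only [h1]
  have hI : ∀ g : ℝ → ℝ, Continuous g →
      IntervalIntegrable g MeasureTheory.volume 0 (2 * Real.pi) :=
    fun g hg => hg.intervalIntegrable _ _
  have e1 : ∫ θ in (0:ℝ)..2 * Real.pi, ((‖c‖ ^ 2 + s ^ 2) +
      (2 * s * c.re * Real.cos θ + 2 * s * c.im * Real.sin θ))
      = (∫ θ in (0:ℝ)..2 * Real.pi, (‖c‖ ^ 2 + s ^ 2)) +
        ((∫ θ in (0:ℝ)..2 * Real.pi, 2 * s * c.re * Real.cos θ) +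
          ∫ θ in (0:ℝ)..2 * Real.pi, 2 * s * c.im * Real.sin θ) := by
    rw [← intervalIntegral.integral_add (hI _ (by fun_prop)) (hI _ (by fun_prop)),
      ← intervalIntegral.integral_add (hI _ (by fun_prop)) (hI _ (by fun_prop))]
  rw [e1, intervalIntegral.integral_const_mul, intervalIntegral.integral_const_mul,
    intervalIntegral.integral_const]
  simp
  field_simp

/-- circle average of `log ‖z‖` over a circle bounding a disc that avoids `0`. -/
lemma circleAverage_log_norm_of_ne {c : ℂ} {s : ℝ} (h : ∀ w ∈ closedBall c |s|, w ≠ 0) :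
    Real.circleAverage (fun z : ℂ => Real.log ‖z‖) c s = Real.log ‖c‖ := by
  apply InnerProductSpace.HarmonicOnNhd.circleAverage_eq
  intro w hw
  exact AnalyticAt.harmonicAt_log_norm (by fun_prop) (h w hw)

/-- Comparison principle on an annulus. -/
theorem annulus_bound {φ : ℂ → EReal} {r₁ r₂ : ℝ} (h0 : 0 < r₁)
    (husc : UpperSemicontinuousOn φ {z | r₁ ≤ ‖z‖ ∧ ‖z‖ ≤ r₂})
    (htop : ∀ z, r₁ ≤ ‖z‖ → ‖z‖ ≤ r₂ → φ z ≠ ⊤)
    (hsub : ∀ (c : ℂ) (s : ℝ), 0 < s → (∀ w ∈ closedBall c s, r₁ < ‖w‖ ∧ ‖w‖ < r₂) →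
      ∀ f : ℂ → ℝ, Continuous f → (∀ w ∈ sphere c s, φ w ≤ (f w : EReal)) →
      φ c ≤ ((Real.circleAverage f c s : ℝ) : EReal))
    {A B : ℝ} (h1 : ∀ z, ‖z‖ = r₁ → φ z ≤ ((A + B * Real.log r₁ : ℝ) : EReal))
    (h2 : ∀ z, ‖z‖ = r₂ → φ z ≤ ((A + B * Real.log r₂ : ℝ) : EReal)) :
    ∀ z, r₁ ≤ ‖z‖ → ‖z‖ ≤ r₂ → φ z ≤ ((A + B * Real.log ‖z‖ : ℝ) : EReal) := by
  intro z₁ hz₁ hz₁'
  by_contra hcon
  rw [not_le] at hcon
  -- `φ z₁` is a real number
  obtain ⟨p, hp⟩ : ∃ p : ℝ, φ z₁ = (p : EReal) := by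
    have hb : φ z₁ ≠ ⊥ := fun h => by rw [h] at hcon; exact absurd hcon (by simp)
    exact ⟨(φ z₁).toReal, (EReal.coe_toReal (htop z₁ hz₁ hz₁') hb).symm⟩
  rw [hp, EReal.coe_lt_coe_iff] at hcon
  have hr₂ : 0 < r₂ := lt_of_lt_of_le h0 (hz₁.trans hz₁')
  -- choose ε
  obtain ⟨ε, hε, hε'⟩ : ∃ ε : ℝ, 0 < ε ∧ A + B * Real.log ‖z₁‖ + ε * r₂ ^ 2 < p := by
    refine ⟨(p - (A + B * Real.log ‖z₁‖)) / (2 * r₂ ^ 2), by
      apply div_pos (by linarith) (by positivity), ?_⟩
    have : (p - (A + B * Real.log ‖z₁‖)) / (2 * r₂ ^ 2) * r₂ ^ 2 =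
        (p - (A + B * Real.log ‖z₁‖)) / 2 := by field_simp
    rw [this]; linarith
  set K : Set ℂ := {z | r₁ ≤ ‖z‖ ∧ ‖z‖ ≤ r₂} with hK
  set g : ℂ → ℝ := fun z => A + B * Real.log (max ‖z‖ r₁) - ε * ‖z‖ ^ 2 with hg
  have hgc : Continuous g := by
    have : Continuous fun z : ℂ => Real.log (max ‖z‖ r₁) := by
      apply Continuous.log (by fun_prop)
      intro z
      have := le_max_right ‖z‖ r₁
      linarith
    fun_prop
  have hgK : ∀ z ∈ K, g z = A + B * Real.log ‖z‖ - ε * ‖z‖ ^ 2 := by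
    intro z hz
    simp only [hg]; rw [max_eq_left hz.1]
  have hKc : IsCompact K := by
    have : K = closedBall (0:ℂ) r₂ ∩ {z | r₁ ≤ ‖z‖} := by
      ext z; simp [hK, and_comm]
    rw [this]
    exact (isCompact_closedBall _ _).inter_right (isClosed_le (by fun_prop) (by fun_prop))
  -- the usc function ψ
  set ψ : ℂ → EReal := fun z => φ z + ((-(g z) : ℝ) : EReal) with hψ
  have hψusc : UpperSemicontinuousOn ψ K := by
    apply UpperSemicontinuousOn.add' husc
    · exact (continuous_coe_real_ereal.comp hgc.neg).continuousOn.upperSemicontinuousOn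
    · intro x hx
      exact EReal.continuousAt_add (Or.inl (htop x hx.1 hx.2)) (Or.inr (by simp))
  obtain ⟨z₀, hz₀, hmax⟩ := UpperSemicontinuousOn.exists_isMaxOn
    (show K.Nonempty from ⟨z₁, ⟨hz₁, hz₁'⟩⟩) hKc hψusc
  have hmax1 : ψ z₁ ≤ ψ z₀ := hmax ⟨hz₁, hz₁'⟩
  have hψ1 : ((ε * r₂ ^ 2 : ℝ) : EReal) < ψ z₁ := by
    simp only [hψ, hp]
    rw [← EReal.coe_add, EReal.coe_lt_coe_iff, hgK z₁ ⟨hz₁, hz₁'⟩]
    nlinarith [sq_nonneg ‖z₁‖]
  have hψ0 : ((ε * r₂ ^ 2 : ℝ) : EReal) < ψ z₀ := lt_of_lt_of_le hψ1 hmax1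
  -- `φ z₀` is real
  obtain ⟨m, hm⟩ : ∃ m : ℝ, φ z₀ = (m : EReal) := by
    have hb : φ z₀ ≠ ⊥ := fun h => by
      simp only [hψ, h] at hψ0
      rw [EReal.bot_add] at hψ0
      exact absurd hψ0 (by simp)
    exact ⟨(φ z₀).toReal, (EReal.coe_toReal (htop z₀ hz₀.1 hz₀.2) hb).symm⟩
  have hψ0' : ε * r₂ ^ 2 < m - g z₀ := by
    simp only [hψ, hm] at hψ0
    rw [← EReal.coe_add, EReal.coe_lt_coe_iff] at hψ0
    linarith
  have hz₀sq : ‖z₀‖ ^ 2 ≤ r₂ ^ 2 := by
    have := hz₀.2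
    have h0' := norm_nonneg z₀
    nlinarith
  -- z₀ is interior
  have hi1 : r₁ < ‖z₀‖ := by
    rcases lt_or_eq_of_le hz₀.1 with h | h
    · exact h
    · exfalso
      have h3 := h1 z₀ h.symm
      rw [hm, EReal.coe_le_coe_iff] at h3
      rw [hgK z₀ hz₀, ← h] at hψ0'
      rw [← h] at hz₀sq
      nlinarith
  have hi2 : ‖z₀‖ < r₂ := by
    rcases lt_or_eq_of_le hz₀.2 with h | h
    · exact h
    · exfalso
      have h3 := h2 z₀ h
      rw [hm, EReal.coe_le_coe_iff] at h3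
      rw [hgK z₀ hz₀, h] at hψ0'
      nlinarith
  -- small disc
  obtain ⟨s, hs, hsK⟩ : ∃ s : ℝ, 0 < s ∧ ∀ w ∈ closedBall z₀ s, r₁ < ‖w‖ ∧ ‖w‖ < r₂ := by
    have hopen : IsOpen {w : ℂ | r₁ < ‖w‖ ∧ ‖w‖ < r₂} :=
      (isOpen_lt continuous_const continuous_norm).inter
        (isOpen_lt continuous_norm continuous_const)
    obtain ⟨s, hs, hsub'⟩ := nhds_basis_closedBall.mem_iff.1 (hopen.mem_nhds ⟨hi1, hi2⟩)
    exact ⟨s, hs, fun w hw => hsub' hw⟩
  have hmaj : ∀ w ∈ sphere z₀ s, φ w ≤ ((g w + (m - g z₀) : ℝ) : EReal) := by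
    intro w hw
    have hwK : w ∈ K := by
      have := hsK w (sphere_subset_closedBall hw)
      exact ⟨this.1.le, this.2.le⟩
    have h4 : ψ w ≤ ψ z₀ := hmax hwK
    simp only [hψ, hm] at h4
    rw [← EReal.coe_add] at h4
    have h5 : φ w ≤ ((m + -g z₀ : ℝ) : EReal) - ((-(g w) : ℝ) : EReal) := by
      rw [EReal.le_sub_iff_add_le (Or.inl (by simp)) (Or.inl (by simp))]
      exact h4
    rw [← EReal.coe_sub] at h5
    refine h5.trans (le_of_eq ?_)
    congr 1
    ring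
  have hfin := hsub z₀ s hs hsK (fun w => g w + (m - g z₀)) (by fun_prop) hmaj
  rw [hm, EReal.coe_le_coe_iff] at hfin
  have hci : ∀ f : ℂ → ℝ, ContinuousOn f (sphere z₀ |s|) → CircleIntegrable f z₀ s := by
    intro f hf; exact hf.circleIntegrable'
  have hcl : ContinuousOn (fun z : ℂ => Real.log ‖z‖) (sphere z₀ |s|) := by
    apply ContinuousOn.log (by fun_prop)
    intro x hx
    rw [abs_of_pos hs] at hx
    have := (hsK x (sphere_subset_closedBall hx)).1
    linarith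
  have hav : Real.circleAverage (fun w => g w + (m - g z₀)) z₀ s
      = (A + B * Real.log ‖z₀‖ - ε * (‖z₀‖ ^ 2 + s ^ 2)) + (m - g z₀) := by
    have e1 : Real.circleAverage (fun w => g w + (m - g z₀)) z₀ s
        = Real.circleAverage (fun w => ((A + (m - g z₀)) + B * Real.log ‖w‖) + (-ε) * ‖w‖ ^ 2) z₀ s := by
      apply Real.circleAverage_congr_sphere
      intro w hw
      rw [abs_of_pos hs] at hw
      have hwK : w ∈ K := by
        have := hsK w (sphere_subset_closedBall hw)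
        exact ⟨this.1.le, this.2.le⟩
      simp only []
      rw [hgK w hwK]; ring
    rw [e1, Real.circleAverage_fun_add (hci _ (by
        apply ContinuousOn.add (by fun_prop)
        exact continuousOn_const.mul hcl)) (hci _ (by fun_prop)),
      Real.circleAverage_fun_add (f₁ := fun _ => (A + (m - g z₀)))
        (f₂ := fun w => B * Real.log ‖w‖) (hci _ (by fun_prop)) (hci _ (continuousOn_const.mul hcl)),
      Real.circleAverage_const]
    have e2 : Real.circleAverage (fun w : ℂ => B * Real.log ‖w‖) z₀ s = B * Real.log ‖z₀‖ := by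
      have := Real.circleAverage_fun_smul (a := B) (f := fun w : ℂ => Real.log ‖w‖) (c := z₀) (R := s)
      simp only [smul_eq_mul] at this
      rw [this, circleAverage_log_norm_of_ne]
      intro w hw h0w
      rw [abs_of_pos hs] at hw
      have := (hsK w hw).1
      rw [h0w, norm_zero] at this
      linarith
    have e3 : Real.circleAverage (fun w : ℂ => (-ε) * ‖w‖ ^ 2) z₀ s = (-ε) * (‖z₀‖ ^ 2 + s ^ 2) := by
      have := Real.circleAverage_fun_smul (a := -ε) (f := fun w : ℂ => ‖w‖ ^ 2) (c := z₀) (R := s)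
      simp only [smul_eq_mul] at this
      rw [this, circleAverage_norm_sq]
    rw [e2, e3]; ring
  rw [hav, hgK z₀ hz₀] at hfin
  nlinarith [sq_pos_of_pos hs]

variable {d : ℕ}

/-- restriction to a complex line: sub-mean inequality over arbitrary discs -/
lemma IsPSH.line_submean {Ω : Set (Fin d → ℂ)} {u : (Fin d → ℂ) → EReal} (hu : IsPSH Ω u)
    (a b : Fin d → ℂ) (c : ℂ) (s : ℝ) (hs : 0 < s)
    (hd : ∀ w ∈ closedBall c s, a + w • b ∈ Ω) (f : ℂ → ℝ) (hf : Continuous f)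
    (hm : ∀ w ∈ sphere c s, u (a + w • b) ≤ (f w : EReal)) :
    u (a + c • b) ≤ ((Real.circleAverage f c s : ℝ) : EReal) := by
  have key := hu.2.2 (a + c • b) ((s : ℂ) • b)
    (fun ζ hζ => by
      have : a + c • b + ζ • (s : ℂ) • b = a + (c + ζ * s) • b := by
        rw [add_smul, mul_smul, add_assoc]
      rw [this]
      apply hd
      rw [mem_closedBall, dist_eq_norm]
      simp only [add_sub_cancel_left, norm_mul, Complex.norm_real, Real.norm_eq_abs,
        abs_of_pos hs]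
      nlinarith)
    (fun ζ => f (c + ζ * s)) (by fun_prop)
    (fun ζ hζ => by
      have : a + c • b + ζ • (s : ℂ) • b = a + (c + ζ * s) • b := by
        rw [add_smul, mul_smul, add_assoc]
      rw [this]
      apply hm
      rw [mem_sphere, dist_eq_norm]
      simp only [add_sub_cancel_left, norm_mul, Complex.norm_real, Real.norm_eq_abs,
        abs_of_pos hs, hζ, one_mul])
  refine key.trans (le_of_eq ?_)
  congr 1
  rw [Real.circleAverage_eq_circleAverage_zero_one (f := f) (c := c) (R := s)]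
  congr 1
  ext ζ
  congr 1
  ring

lemma norm_line (a b : Fin d → ℂ) (hb : ‖b‖ = 1) (w : ℂ) : ‖(a + w • b) - a‖ = ‖w‖ := by
  rw [add_sub_cancel_left, norm_smul, hb, mul_one]

/-- The comparison on an annulus for a psh function in a polydisc. -/
theorem IsPSH.annulus {a : Fin d → ℂ} {R : ℝ} {u : (Fin d → ℂ) → EReal}
    (hu : IsPSH (Metric.ball a R) u) {r₁ r₂ : ℝ} (h0 : 0 < r₁) (h2R : r₂ < R) {A B : ℝ}
    (h1 : ∀ z, ‖z - a‖ = r₁ → u z ≤ ((A + B * Real.log r₁ : ℝ) : EReal))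
    (h2 : ∀ z, ‖z - a‖ = r₂ → u z ≤ ((A + B * Real.log r₂ : ℝ) : EReal)) :
    ∀ z, r₁ ≤ ‖z - a‖ → ‖z - a‖ ≤ r₂ → u z ≤ ((A + B * Real.log ‖z - a‖ : ℝ) : EReal) := by
  intro z hz1 hz2
  have hρ : 0 < ‖z - a‖ := lt_of_lt_of_le h0 hz1
  set b : Fin d → ℂ := ((‖z - a‖ : ℂ)⁻¹) • (z - a) with hb
  have hbn : ‖b‖ = 1 := by
    rw [hb, norm_smul, norm_inv, Complex.norm_real, Real.norm_eq_abs, abs_of_pos hρ]
    exact inv_mul_cancel₀ hρ.ne'
  have hzb : a + ((‖z - a‖ : ℝ) : ℂ) • b = z := by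
    rw [hb, smul_smul, mul_inv_cancel₀ (by exact_mod_cast hρ.ne'), one_smul]
    abel
  have hmem : ∀ w : ℂ, ‖w‖ < R → a + w • b ∈ Metric.ball a R := by
    intro w hw
    rw [mem_ball, dist_eq_norm, norm_line a b hbn]; exact hw
  have key := annulus_bound (φ := fun w : ℂ => u (a + w • b)) (r₁ := r₁) (r₂ := r₂) (A := A)
    (B := B) h0 ?_ ?_ ?_ ?_ ?_ ((‖z - a‖ : ℝ) : ℂ) ?_ ?_
  · simp only [hzb, Complex.norm_real, Real.norm_eq_abs, abs_of_pos hρ] at key
    exact key
  · apply UpperSemicontinuousOn.comp hu.1 (f := u) (by fun_prop)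
    intro w hw
    exact hmem w (lt_of_le_of_lt hw.2 h2R)
  · intro w _ hw
    exact hu.2.1 _ (hmem w (lt_of_le_of_lt hw h2R))
  · intro c s hs hd f hf hm
    exact hu.line_submean a b c s hs (fun w hw => hmem w ((hd w hw).2.trans h2R)) f hf hm
  · intro w hw
    apply h1
    rw [norm_line a b hbn, hw]
  · intro w hw
    apply h2
    rw [norm_line a b hbn, hw]
  · rw [Complex.norm_real, Real.norm_eq_abs, abs_of_pos hρ]; exact hz1
  · rw [Complex.norm_real, Real.norm_eq_abs, abs_of_pos hρ]; exact hz2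

/-- If `u ≤ κ log r` on `ball a r` for arbitrarily small `r`, then `u ≤ κ log (‖z-a‖/R) + C` on
the whole polydisc `ball a R`, where `C` is a bound for `u`. -/
theorem bound_of_frequently {a : Fin d → ℂ} {R : ℝ} (hR : 0 < R)
    {u : (Fin d → ℂ) → EReal} (hu : IsPSH (Metric.ball a R) u) {C κ : ℝ} (hκ : 0 < κ)
    (hC : ∀ z ∈ ball a R, u z ≤ (C : EReal))
    (hf : ∃ᶠ r in 𝓝[>] (0:ℝ), ∀ z ∈ ball a r, u z ≤ ((κ * Real.log r : ℝ) : EReal)) :
    ∀ z ∈ ball a R, z ≠ a →
      u z ≤ ((κ * Real.log (‖z - a‖ / R) + C : ℝ) : EReal) := by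
  intro z hz hza
  have hρ : 0 < ‖z - a‖ := norm_pos_iff.2 (sub_ne_zero.2 hza)
  have hρR : ‖z - a‖ < R := by rwa [mem_ball, dist_eq_norm] at hz
  -- first: for each `R' ∈ (ρ, R)`
  have step1 : ∀ R', ‖z - a‖ < R' → R' < R →
      u z ≤ ((κ * (Real.log ‖z - a‖ - Real.log R') + C : ℝ) : EReal) := by
    intro R' h1 h2
    have hR' : 0 < R' := hρ.trans h1
    -- B r
    let B : ℝ → ℝ := fun r => (C - κ * Real.log r) / (Real.log R' - Real.log (r / 2))
    have hlog : Tendsto Real.log (𝓝[>] (0:ℝ)) atBot := Real.tendsto_log_nhdsGT_zero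
    have hB : Tendsto B (𝓝[>] (0:ℝ)) (𝓝 κ) := by
      -- substitute t = -log r → ∞
      have hden : ∀ᶠ r in 𝓝[>] (0:ℝ), B r = κ + (C - κ * (Real.log R' + Real.log 2)) /
          ((Real.log R' + Real.log 2) - Real.log r) := by
        have hlt : ∀ᶠ r in 𝓝[>] (0:ℝ), Real.log r < Real.log R' + Real.log 2 :=
          hlog.eventually_lt_atBot _
        filter_upwards [hlt, self_mem_nhdsWithin] with r hr hr0
        have hr0' : (0:ℝ) < r := hr0
        simp only [B]
        rw [Real.log_div hr0'.ne' (by norm_num)]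
        have hne : (Real.log R' + Real.log 2) - Real.log r ≠ 0 := by
          intro h'; linarith
        have hne' : Real.log R' - (Real.log r - Real.log 2) ≠ 0 := by
          intro h'; linarith
        rw [div_eq_iff hne']
        have : (Real.log R' - (Real.log r - Real.log 2)) = (Real.log R' + Real.log 2) - Real.log r := by
          ring
        rw [this, add_mul, div_mul_cancel₀ _ hne]
        ring
      have htend : Tendsto (fun r => κ + (C - κ * (Real.log R' + Real.log 2)) /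
          ((Real.log R' + Real.log 2) - Real.log r)) (𝓝[>] (0:ℝ)) (𝓝 (κ + 0)) := by
        apply Tendsto.add tendsto_const_nhds
        apply Tendsto.div_atTop tendsto_const_nhds
        apply tendsto_atTop_add_const_left
        exact tendsto_neg_atBot_atTop.comp hlog
      rw [add_zero] at htend
      exact htend.congr' (hden.mono fun r hr => hr.symm)
    -- frequently
    have hfr : ∃ᶠ r in 𝓝[>] (0:ℝ),
        u z ≤ ((C + B r * (Real.log ‖z - a‖ - Real.log R') : ℝ) : EReal) := by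
      have hev : ∀ᶠ r in 𝓝[>] (0:ℝ), 0 < r ∧ r < ‖z - a‖ := by
        filter_upwards [self_mem_nhdsWithin, Ioo_mem_nhdsGT hρ] with r _ hr
        exact ⟨hr.1, hr.2⟩
      refine (hf.and_eventually hev).mono ?_
      rintro r ⟨hr, hr0, hr1⟩
      have hlt : Real.log (r / 2) < Real.log R' :=
        Real.log_lt_log (by positivity) (by linarith)
      have key := hu.annulus (r₁ := r / 2) (r₂ := R') (by positivity) h2
        (A := C - B r * Real.log R') (B := B r) ?_ ?_ z (by linarith) h1.le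
      · refine key.trans (le_of_eq ?_)
        congr 1; ring
      · intro w hw
        have hw' : w ∈ ball a r := by
          rw [mem_ball, dist_eq_norm, hw]; linarith
        refine (hr w hw').trans (le_of_eq ?_)
        congr 1
        have : C - B r * Real.log R' + B r * Real.log (r / 2)
            = C - B r * (Real.log R' - Real.log (r / 2)) := by ring
        rw [this]
        simp only [B]
        rw [div_mul_cancel₀ _ (by intro h'; linarith)]
        ring
      · intro w hw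
        refine (hC w ?_).trans (le_of_eq ?_)
        · rw [mem_ball, dist_eq_norm, hw]; exact h2
        · congr 1; ring
    have hlim : Tendsto (fun r => ((C + B r * (Real.log ‖z - a‖ - Real.log R') : ℝ) : EReal))
        (𝓝[>] (0:ℝ)) (𝓝 ((C + κ * (Real.log ‖z - a‖ - Real.log R') : ℝ) : EReal)) := by
      apply (continuous_coe_real_ereal.tendsto _).comp
      exact tendsto_const_nhds.add (hB.mul_const _)
    have := ge_of_tendsto_of_frequently hlim hfr
    refine this.trans (le_of_eq ?_)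
    congr 1; ring
  -- let `R' → R`
  have hlim : Tendsto (fun R' => ((κ * (Real.log ‖z - a‖ - Real.log R') + C : ℝ) : EReal))
      (𝓝[<] R) (𝓝 ((κ * (Real.log ‖z - a‖ - Real.log R) + C : ℝ) : EReal)) := by
    apply (continuous_coe_real_ereal.tendsto _).comp
    have : Tendsto Real.log (𝓝[<] R) (𝓝 (Real.log R)) :=
      (Real.continuousAt_log hR.ne').tendsto.mono_left nhdsWithin_le_nhds
    exact ((tendsto_const_nhds.sub this).const_mul _).add_const _
  have hev : ∀ᶠ R' in 𝓝[<] R, u z ≤ ((κ * (Real.log ‖z - a‖ - Real.log R') + C : ℝ) : EReal) := by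
    filter_upwards [Ioo_mem_nhdsLT hρR] with R' hR'
    exact step1 R' hR'.1 hR'.2
  have := ge_of_tendsto hlim hev
  rwa [Real.log_div hρ.ne' hR.ne']

/-- the value at the centre is `⊥`. -/
theorem eq_bot_of_frequently {a : Fin d → ℂ} {u : (Fin d → ℂ) → EReal} {κ : ℝ} (hκ : 0 < κ)
    (hf : ∃ᶠ r in 𝓝[>] (0:ℝ), ∀ z ∈ ball a r, u z ≤ ((κ * Real.log r : ℝ) : EReal)) :
    u a = ⊥ := by
  rw [EReal.eq_bot_iff_forall_lt]
  intro y
  have hlog : Tendsto (fun r => κ * Real.log r) (𝓝[>] (0:ℝ)) atBot :=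
    Real.tendsto_log_nhdsGT_zero.const_mul_atBot hκ
  obtain ⟨r, hr, hr1, hr0⟩ := (hf.and_eventually
    ((hlog.eventually_lt_atBot y).and self_mem_nhdsWithin)).exists
  have hr0' : (0:ℝ) < r := hr0
  refine lt_of_le_of_lt (hr a (mem_ball_self hr0')) ?_
  exact_mod_cast hr1

/-- `u` has a logarithmic pole of weight at least `κ` at `a`. -/
def LogPole (κ : ℝ) (u : (Fin d → ℂ) → EReal) (a : Fin d → ℂ) : Prop :=
  ∃ C : ℝ, ∀ᶠ z in 𝓝[≠] a, u z ≤ ((κ * Real.log ‖z - a‖ + C : ℝ) : EReal)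

end Vale.Agent.P301.H474
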